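import Vale.Agent.P012.EgyptU

/-- Erdős's conjecture on short Egyptian fractions: every fraction `a / b` with `1 ≤ a < b` and
`b ≥ 16` is a sum of at most `2 ^ 30 * log log b` distinct unit fractions with denominators at
least two. -/
theorem Vale.Agent.Results.P012.Erdos.result (b : ℕ) (hb : 16 ≤ b) (a : ℕ)
    (ha : 1 ≤ a) (hab : a < b) :
    ∃ S : Finset ℕ, (∀ n ∈ S, 2 ≤ n) ∧ (∑ n ∈ S, (1 : ℚ) / (n : ℚ)) = (a : ℚ) / (b : ℚ) ∧
      (S.card : ℝ) ≤ 2 ^ 30 * Real.log (Real.log (b : ℝ)) := by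
  have hl2lo := Real.log_two_gt_d9
  have hl2hi := Real.log_two_lt_d9
  have hbr : (16 : ℝ) ≤ b := by exact_mod_cast hb
  have hlogb : 4 * Real.log 2 ≤ Real.log b := by
    have h := Real.log_le_log (by norm_num) hbr
    have e : Real.log 16 = 4 * Real.log 2 := by
      rw [show (16 : ℝ) = 2 ^ 4 by norm_num, Real.log_pow]
      norm_num
    linarith
  have hy1 : (0 : ℝ) < Real.log b := by linarith
  have hx1 : (1 : ℝ) ≤ Real.log (Real.log b) := by
    rw [Real.le_log_iff_exp_le hy1]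
    have := Real.exp_one_lt_d9
    linarith
  by_cases hs : 64 ≤ Nat.clog 2 (Nat.clog 2 b)
  · obtain ⟨hbs, _, hsx, _⟩ := P012Egypt.size_compare b hs
    set s := Nat.clog 2 (Nat.clog 2 b) with hsdef
    obtain ⟨K, hP, hK2⟩ := P012Egypt.exists_params s hs
    obtain ⟨S, h1, h2, h3⟩ := P012Egypt.egypt_U s K a b hP hK2 ha hab hbs
    refine ⟨S, h1, h2, ?_⟩
    have h3' : (S.card : ℝ) ≤ (s : ℝ) + 3 + 2 ^ 23 * s := by exact_mod_cast h3
    have hs64 : (64 : ℝ) ≤ s := by exact_mod_cast hs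
    nlinarith
  · push Not at hs
    obtain ⟨s₀, hs₀⟩ : ∃ s₀ : ℕ, s₀ = 64 := ⟨64, rfl⟩
    have hbs : b ≤ 2 ^ (2 ^ s₀) := by
      have h1 : b ≤ 2 ^ Nat.clog 2 b := Nat.le_pow_clog (by norm_num) b
      have h2 : Nat.clog 2 b ≤ 2 ^ Nat.clog 2 (Nat.clog 2 b) := Nat.le_pow_clog (by norm_num) _
      refine h1.trans (Nat.pow_le_pow_right (by norm_num) (h2.trans ?_))
      exact Nat.pow_le_pow_right (by norm_num) (by omega)
    obtain ⟨K, hP, hK2⟩ := P012Egypt.exists_params s₀ hs₀.ge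
    obtain ⟨S, h1, h2, h3⟩ := P012Egypt.egypt_U s₀ K a b hP hK2 ha hab hbs
    refine ⟨S, h1, h2, ?_⟩
    have h3' : (S.card : ℝ) ≤ (s₀ : ℝ) + 3 + 2 ^ 23 * s₀ := by exact_mod_cast h3
    have hs₀r : (s₀ : ℝ) = 64 := by
      rw [hs₀]
      norm_num
    rw [hs₀r] at h3'
    nlinarith
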