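import Vale.Agent.P012.Chain3

/-- Every fraction `a / b` with `1 ≤ a < b` and `b ≥ 16` is a sum of at most
`2 ^ 23 * log log b * (1 + log log log b)` distinct unit fractions with denominators at least two. -/
theorem Vale.Agent.Results.P012.LogLogLogLog.result (b : ℕ) (hb : 16 ≤ b) (a : ℕ)
    (ha : 1 ≤ a) (hab : a < b) :
    ∃ S : Finset ℕ, (∀ n ∈ S, 2 ≤ n) ∧ (∑ n ∈ S, (1 : ℚ) / (n : ℚ)) = (a : ℚ) / (b : ℚ) ∧
      (S.card : ℝ) ≤
        2 ^ 23 * Real.log (Real.log (b : ℝ)) * (1 + Real.log (Real.log (Real.log (b : ℝ)))) := by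
  have hl2lo := Real.log_two_gt_d9
  have hl2hi := Real.log_two_lt_d9
  have hbr : (16 : ℝ) ≤ b := by exact_mod_cast hb
  have hlogb : 4 * Real.log 2 ≤ Real.log b := by
    have h := Real.log_le_log (by norm_num) hbr
    have e : Real.log 16 = 4 * Real.log 2 := by
      rw [show (16 : ℝ) = 2 ^ 4 by norm_num, Real.log_pow]
      norm_num
    linarith
  have hy1 : (0 : ℝ) < Real.log b := by linarith
  have hx1 : (1 : ℝ) ≤ Real.log (Real.log b) := by
    rw [Real.le_log_iff_exp_le hy1]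
    have := Real.exp_one_lt_d9
    linarith
  have hz0 : 0 ≤ Real.log (Real.log (Real.log b)) := Real.log_nonneg hx1
  by_cases hs : 64 ≤ Nat.clog 2 (Nat.clog 2 b)
  · obtain ⟨hbs, hz, hsx, hlogs⟩ := P012Egypt.size_compare b hs
    set s := Nat.clog 2 (Nat.clog 2 b) with hsdef
    obtain ⟨S, h1, h2, h3⟩ := P012Egypt.egypt_real s a b hs ha hab hbs
    refine ⟨S, h1, h2, h3.trans ?_⟩
    set x := Real.log (Real.log (b : ℝ)) with hx
    set z := Real.log x with hzdef
    have hs0 : (0 : ℝ) ≤ s := Nat.cast_nonneg _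
    have hx0 : 0 ≤ x := by linarith
    have h4 : (s : ℝ) * Real.log s ≤ (2 * x) * (2 * z) := by
      have hz0 : 0 ≤ 2 * z := by linarith
      calc (s : ℝ) * Real.log s ≤ s * (2 * z) := mul_le_mul_of_nonneg_left hlogs hs0
        _ ≤ (2 * x) * (2 * z) := mul_le_mul_of_nonneg_right hsx hz0
    have h5 : 0 ≤ x * z := mul_nonneg hx0 (by linarith)
    have e : 2 ^ 23 * x * (1 + z) = 2 ^ 23 * x + 2 ^ 23 * (x * z) := by ring
    have e2 : 64 * (s : ℝ) * Real.log s = 64 * (s * Real.log s) := by ring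
    rw [e, e2]
    norm_num
    nlinarith
  · push Not at hs
    obtain ⟨s₀, hs₀⟩ : ∃ s₀ : ℕ, s₀ = 64 := ⟨64, rfl⟩
    have hbs : b ≤ 2 ^ (2 ^ s₀) := by
      have h1 : b ≤ 2 ^ Nat.clog 2 b := Nat.le_pow_clog (by norm_num) b
      have h2 : Nat.clog 2 b ≤ 2 ^ Nat.clog 2 (Nat.clog 2 b) := Nat.le_pow_clog (by norm_num) _
      refine h1.trans (Nat.pow_le_pow_right (by norm_num) (h2.trans ?_))
      exact Nat.pow_le_pow_right (by norm_num) (by omega)
    obtain ⟨S, h1, h2, h3⟩ := P012Egypt.egypt_real s₀ a b hs₀.ge ha hab hbs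
    refine ⟨S, h1, h2, h3.trans ?_⟩
    set x := Real.log (Real.log (b : ℝ)) with hx
    set z := Real.log x with hzdef
    have hs₀r : (s₀ : ℝ) = 64 := by
      rw [hs₀]
      norm_num
    rw [hs₀r]
    have hlog64 : Real.log (64 : ℝ) ≤ 6 := by
      have e : (64 : ℝ) = 2 ^ 6 := by norm_num
      rw [e, Real.log_pow]
      push_cast
      linarith
    have h5 : (1 : ℝ) ≤ x * (1 + z) := by nlinarith
    have e : (2 : ℝ) ^ 23 * x * (1 + z) = 2 ^ 23 * (x * (1 + z)) := by ring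
    rw [e]
    nlinarith
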