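import Vale.Agent.P012.Phase

open Finset

namespace P012Egypt

/-- Comparison of the index of the sequence with the double logarithm. -/
lemma index_bound (b : ℕ) (hb : 16 ≤ b) :
    (1 : ℝ) ≤ Real.log (Real.log b) ∧
    ((Nat.log 2 (Nat.log 2 b + 1) : ℕ) : ℝ) ≤ 4 * Real.log (Real.log b) := by
  have hl2lo := Real.log_two_gt_d9
  have hl2hi := Real.log_two_lt_d9
  have hl2 : 0 < Real.log 2 := Real.log_pos (by norm_num)
  have hbr : (16 : ℝ) ≤ b := by exact_mod_cast hb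
  have hlogb : 4 * Real.log 2 ≤ Real.log b := by
    have h := Real.log_le_log (by norm_num) hbr
    have e : Real.log 16 = 4 * Real.log 2 := by
      rw [show (16 : ℝ) = 2 ^ 4 by norm_num, Real.log_pow]
      norm_num
    linarith
  have hlogbpos : 0 < Real.log b := by linarith
  set y := Real.log b with hy
  have hx1 : (1 : ℝ) ≤ Real.log y := by
    rw [Real.le_log_iff_exp_le hlogbpos]
    have := Real.exp_one_lt_d9
    linarith
  refine ⟨hx1, ?_⟩
  set L := Nat.log 2 b with hL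
  have hLy : (L : ℝ) * Real.log 2 ≤ y := by
    have h1 : 2 ^ L ≤ b := Nat.pow_log_le_self 2 (by omega)
    have h2 : ((2 : ℝ) ^ L) ≤ b := by exact_mod_cast h1
    have h3 := Real.log_le_log (by positivity) h2
    rwa [Real.log_pow] at h3
  have hL1 : ((L + 1 : ℕ) : ℝ) ≤ 4 * y := by
    push_cast
    nlinarith
  set M := Nat.log 2 (L + 1) with hM
  have hM1 : (M : ℝ) * Real.log 2 ≤ Real.log (4 * y) := by
    have h1 : 2 ^ M ≤ L + 1 := Nat.pow_log_le_self 2 (by omega)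
    have h2 : ((2 : ℝ) ^ M) ≤ ((L + 1 : ℕ) : ℝ) := by exact_mod_cast h1
    have h3 := Real.log_le_log (by positivity) (h2.trans hL1)
    rwa [Real.log_pow] at h3
  have hlog4 : Real.log (4 * y) = 2 * Real.log 2 + Real.log y := by
    rw [Real.log_mul (by norm_num) hlogbpos.ne', show (4 : ℝ) = 2 ^ 2 by norm_num, Real.log_pow]
    norm_num
  rw [hlog4] at hM1
  have hM3 : (M : ℝ) * Real.log 2 ≤ 4 * Real.log y * Real.log 2 := by
    have h1 : 0 ≤ (Real.log y - 1) * Real.log 2 := mul_nonneg (by linarith) hl2.le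
    have h2 : 0 ≤ Real.log y * (2 * Real.log 2 - 1) := mul_nonneg (by linarith) (by linarith)
    nlinarith
  exact le_of_mul_le_mul_right hM3 hl2

end P012Egypt

/-- Every fraction `a / b` with `1 ≤ a < b` and `b ≥ 16` is a sum of at most
`2 ^ 32 * (log log b) ^ 2` distinct unit fractions with denominators at least two. -/
theorem Vale.Agent.Results.P012.LogLogSquared.result (b : ℕ) (hb : 16 ≤ b) (a : ℕ) (ha : 1 ≤ a)
    (hab : a < b) :
    ∃ S : Finset ℕ, (∀ n ∈ S, 2 ≤ n) ∧ (∑ n ∈ S, (1 : ℚ) / (n : ℚ)) = (a : ℚ) / (b : ℚ) ∧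
      (S.card : ℝ) ≤ 2 ^ 32 * (Real.log (Real.log (b : ℝ))) ^ 2 := by
  obtain ⟨hx1, hM⟩ := P012Egypt.index_bound b hb
  set x := Real.log (Real.log (b : ℝ)) with hx
  set L := Nat.log 2 b with hL
  set M := Nat.log 2 (L + 1) with hMdef
  set K := max 24 (M + 1) with hK
  have hK24 : 24 ≤ K := le_max_left _ _
  have hKM : M + 1 ≤ K := le_max_right _ _
  obtain ⟨N, hN, hGood⟩ := P012Egypt.exists_good K hK24
  have hbN : b ≤ N := by
    have h1 : L + 1 < 2 ^ (M + 1) := Nat.lt_pow_succ_log_self (by norm_num) (L + 1)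
    have h2 : 2 ^ (M + 1) ≤ 2 ^ K := Nat.pow_le_pow_right (by norm_num) hKM
    have h3 : b < 2 ^ (L + 1) := Nat.lt_pow_succ_log_self (by norm_num) b
    have h4 : 2 ^ (L + 1) ≤ 2 ^ (2 ^ K) := Nat.pow_le_pow_right (by norm_num) (by omega)
    omega
  obtain ⟨S, hS1, hS2, hS3⟩ := P012Egypt.egypt_of_good N _ a b hGood hbN ha hab
  refine ⟨S, hS1, hS2, ?_⟩
  have hKreal : (K : ℝ) ≤ 29 * x := by
    rcases le_total 24 (M + 1) with h | h
    · have : K = M + 1 := max_eq_right h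
      rw [this]
      push_cast
      linarith
    · have : K = 24 := max_eq_left h
      rw [this]
      push_cast
      linarith
  have hK0 : (0 : ℝ) ≤ K := Nat.cast_nonneg _
  have hKsq : (K : ℝ) ^ 2 ≤ 841 * x ^ 2 := by nlinarith
  have hx2 : (1 : ℝ) ≤ x ^ 2 := by nlinarith
  have hcard : (S.card : ℝ) ≤ 2 * (2 ^ 30 + 320 * (K : ℝ) ^ 2) := by
    have : ((S.card : ℕ) : ℝ) ≤ ((2 * (2 ^ 30 + 320 * K ^ 2) : ℕ) : ℝ) := by exact_mod_cast hS3
    refine this.trans (le_of_eq ?_)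
    push_cast
    norm_num
  have e : (2 : ℝ) ^ 32 = 2 * 2 ^ 30 + 2 * 2 ^ 30 := by norm_num
  have e2 : (640 : ℝ) * 841 ≤ 2 * 2 ^ 30 := by norm_num
  rw [e]
  nlinarith
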